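import Mathlib
import Vale.Agent.Lib.P328.helper74.ChainDefs

/-!
P328: the support part of the column step for `Lor`: after adding a column of capacity `C`
the count sequence is positive exactly on `[0, m + C]` and the three sequences vanish outside.
-/

namespace Vale.Agent.Lib.P328.helper74

open Finset

/-- nonnegativity of the count sequence everywhere -/
theorem Lor_w_nonneg {m : ℕ} {w l q : ℤ → ℝ} (h : Lor m w l q) (ρ : ℤ) : 0 ≤ w ρ := by
  obtain ⟨hpos, hw0, _, _, _⟩ := h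
  by_cases hin : 0 ≤ ρ ∧ ρ ≤ (m : ℤ)
  · exact (hpos ρ hin.1 hin.2).le
  · have hout : ρ < 0 ∨ (m : ℤ) < ρ := by
      by_contra hcon
      push Not at hcon
      exact hin ⟨hcon.1, hcon.2⟩
    rw [hw0 ρ hout]

/-- The support conjuncts of the column step. -/
theorem Lor_step_support {m : ℕ} {w l q : ℤ → ℝ} (h : Lor m w l q) (C : ℕ) (t : ℝ) :
    (∀ ρ : ℤ, 0 ≤ ρ → ρ ≤ ((m + C : ℕ) : ℤ) → 0 < addW C w ρ) ∧
    (∀ ρ : ℤ, (ρ < 0 ∨ ((m + C : ℕ) : ℤ) < ρ) → addW C w ρ = 0) ∧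
    (∀ ρ : ℤ, (ρ < 0 ∨ ((m + C : ℕ) : ℤ) < ρ) → addL C t w l ρ = 0) ∧
    (∀ ρ : ℤ, (ρ < 0 ∨ ((m + C : ℕ) : ℤ) < ρ) → addQ C t w l q ρ = 0) := by
  have hnn := Lor_w_nonneg h
  obtain ⟨hpos, hw0, hl0, hq0, _⟩ := h
  -- every shifted index is outside the support when `ρ` is outside `[0, m + C]`
  have hout : ∀ ρ : ℤ, (ρ < 0 ∨ ((m + C : ℕ) : ℤ) < ρ) → ∀ k : ℕ, k ≤ C →
      (ρ - (k : ℤ) < 0 ∨ (m : ℤ) < ρ - (k : ℤ)) := by
    intro ρ hρ k hk
    push_cast at hρ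
    have hk' : (k : ℤ) ≤ (C : ℤ) := by exact_mod_cast hk
    rcases hρ with hρ | hρ
    · left
      have : (0 : ℤ) ≤ (k : ℤ) := by positivity
      omega
    · right
      omega
  refine ⟨?_, ?_, ?_, ?_⟩
  · intro ρ h0 hm
    push_cast at hm
    unfold addW
    -- a positive term
    obtain ⟨k, hk, hk0, hkm⟩ : ∃ k : ℕ, k ≤ C ∧ 0 ≤ ρ - (k : ℤ) ∧ ρ - (k : ℤ) ≤ (m : ℤ) := by
      by_cases hρm : ρ ≤ (m : ℤ)
      · exact ⟨0, Nat.zero_le _, by simpa using h0, by simpa using hρm⟩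
      · have hnn' : 0 ≤ ρ - (m : ℤ) := by omega
        refine ⟨(ρ - (m : ℤ)).toNat, ?_, ?_, ?_⟩
        · have : ((ρ - (m : ℤ)).toNat : ℤ) = ρ - (m : ℤ) := Int.toNat_of_nonneg hnn'
          omega
        · rw [Int.toNat_of_nonneg hnn']
          have : (0 : ℤ) ≤ (m : ℤ) := by positivity
          omega
        · rw [Int.toNat_of_nonneg hnn']
          omega
    have hmem : k ∈ range (C + 1) := Finset.mem_range.mpr (by omega)
    have hterm : 0 < w (ρ - (k : ℤ)) := hpos _ hk0 hkm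
    exact lt_of_lt_of_le hterm
      (Finset.single_le_sum (f := fun k : ℕ => w (ρ - (k : ℤ))) (fun i _ => hnn _) hmem)
  · intro ρ hρ
    unfold addW
    refine Finset.sum_eq_zero (fun k hk => ?_)
    exact hw0 _ (hout ρ hρ k (by have := Finset.mem_range.mp hk; omega))
  · intro ρ hρ
    unfold addL
    have h1 : ∑ k ∈ range (C + 1), l (ρ - (k : ℤ)) = 0 :=
      Finset.sum_eq_zero (fun k hk =>
        hl0 _ (hout ρ hρ k (by have := Finset.mem_range.mp hk; omega)))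
    rw [h1, hw0 _ (hout ρ hρ C le_rfl)]
    ring
  · intro ρ hρ
    unfold addQ
    have h1 : ∑ k ∈ range (C + 1), q (ρ - (k : ℤ)) = 0 :=
      Finset.sum_eq_zero (fun k hk =>
        hq0 _ (hout ρ hρ k (by have := Finset.mem_range.mp hk; omega)))
    have h2 : (if 1 ≤ C then w (ρ - (C : ℤ) + 1) else 0) = 0 := by
      split_ifs with hC
      · have h3 := hout ρ hρ (C - 1) (Nat.sub_le _ _)
        have h4 : ((C - 1 : ℕ) : ℤ) = (C : ℤ) - 1 := by
          rw [Nat.cast_sub hC]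
          simp
        rw [h4] at h3
        have h5 : ρ - ((C : ℤ) - 1) = ρ - (C : ℤ) + 1 := by ring
        rw [h5] at h3
        exact hw0 _ h3
      · rfl
    rw [h1, hl0 _ (hout ρ hρ C le_rfl), hw0 _ (hout ρ hρ C le_rfl), h2]
    ring

end Vale.Agent.Lib.P328.helper74
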