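import Mathlib
import Vale.Agent.Lib.P328.helper74.NegCorrCore

/-!
P328: the analytic core of the column step for `Lor`, in window coordinates.

On a window `0, ..., N` of positive weights `w` (with `w (N + 1) ≥ 0`), with first-order and
second-order sequences `l`, `q` whose binary forms are nonnegative at every point of the
window, the window sums satisfy `W * (∑ T + 2 σ ξ₀ + σ² (w₀ - κ w₁)) ≤ (∑ ξ + σ w₀)²`, where
`ξ i = w (i + 1) y + l i z` and `T i = w (i + 2) y² + 2 l (i + 1) y z + q i z²`.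
This is `core_slack` applied to `φ = ξ / w`, `e = P / w (· + 1)`.
-/

namespace Vale.Agent.Lib.P328.helper74

open Finset

/-- the discriminant inequality of a nonnegative binary form -/
theorem disc_of_form (α β γ : ℝ) (h : ∀ y z : ℝ, 0 ≤ α * y ^ 2 - 2 * β * y * z + γ * z ^ 2) :
    β ^ 2 ≤ α * γ := by
  have hα : 0 ≤ α := by
    have := h 1 0
    simpa using this
  rcases hα.lt_or_eq with hpos | hzero
  · have h1 := h β α
    have h2 : α * β ^ 2 - 2 * β * β * α + γ * α ^ 2 = α * (α * γ - β ^ 2) := by ring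
    rw [h2] at h1
    have h3 : 0 ≤ α * γ - β ^ 2 := by
      by_contra hcon
      have hcon := not_le.mp hcon
      have := mul_neg_of_pos_of_neg hpos hcon
      linarith
    linarith
  · have hα0 : α = 0 := hzero.symm
    have hβ : β = 0 := by
      by_contra hβ
      have h1 := h ((γ + 1) / (2 * β)) 1
      rw [hα0] at h1
      have h2 : 2 * β * ((γ + 1) / (2 * β)) = γ + 1 := by field_simp
      have h3 : (0 : ℝ) * ((γ + 1) / (2 * β)) ^ 2 - 2 * β * ((γ + 1) / (2 * β)) * 1 + γ * 1 ^ 2
          = -1 := by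
        rw [h2]; ring
      rw [h3] at h1
      linarith
    rw [hα0, hβ]
    simp

/-- The window form of the column step. -/
theorem window_apply (N : ℕ) (w l q : ℕ → ℝ) (y z σ κ : ℝ)
    (hw : ∀ i ≤ N, 0 < w i) (hw1 : 0 ≤ w (N + 1))
    (hform : ∀ i ≤ N, ∀ y z : ℝ,
      0 ≤ (w (i + 1) ^ 2 - w i * w (i + 2)) * y ^ 2
        - 2 * (w i * l (i + 1) - w (i + 1) * l i) * y * z
        + (l i ^ 2 - w i * q i) * z ^ 2)
    (hκ : κ = 1 ∨ (N = 0 ∧ 0 ≤ κ)) :
    (∑ i ∈ range (N + 1), w i)
        * (∑ i ∈ range (N + 1), (w (i + 2) * y ^ 2 + 2 * l (i + 1) * y * z + q i * z ^ 2)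
            + 2 * σ * (w 1 * y + l 0 * z) + σ ^ 2 * (w 0 - κ * w 1))
      ≤ (∑ i ∈ range (N + 1), (w (i + 1) * y + l i * z) + σ * w 0) ^ 2 := by
  classical
  set ξ : ℕ → ℝ := fun i => w (i + 1) * y + l i * z with hξ
  set P : ℕ → ℝ := fun i => ((w (i + 1) ^ 2 - w i * w (i + 2)) * y ^ 2
        - 2 * (w i * l (i + 1) - w (i + 1) * l i) * y * z
        + (l i ^ 2 - w i * q i) * z ^ 2) / w i with hP
  set φ : ℕ → ℝ := fun i => ξ i / w i with hφ
  set e : ℕ → ℝ := fun i => P i / w (i + 1) with he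
  have hPnn : ∀ i ≤ N, 0 ≤ P i := fun i hi => div_nonneg (hform i hi y z) (hw i hi).le
  have hT : ∀ i ≤ N, w (i + 2) * y ^ 2 + 2 * l (i + 1) * y * z + q i * z ^ 2
      = w i * φ i ^ 2 - P i := by
    intro i hi
    have h0 : w i ≠ 0 := (hw i hi).ne'
    simp only [hφ, hξ, hP]
    field_simp
    ring
  have hξφ : ∀ i ≤ N, ξ i = w i * φ i := by
    intro i hi
    have h0 : w i ≠ 0 := (hw i hi).ne'
    simp only [hφ]
    field_simp
  -- the hypotheses of core_slack
  have he_nn : ∀ i < N, 0 ≤ e i := fun i hi =>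
    div_nonneg (hPnn i hi.le) (hw (i + 1) hi).le
  have hlc : ∀ i < N, w i * w (i + 2) ≤ w (i + 1) ^ 2 := by
    intro i hi
    have := hform i hi.le 1 0
    simp at this
    linarith
  have hinc : ∀ i < N, (φ (i + 1) - φ i) ^ 2
      ≤ (w (i + 1) / w i - w (i + 2) / w (i + 1)) * e i := by
    intro i hi
    have h0 : 0 < w i := hw i hi.le
    have h1 : 0 < w (i + 1) := hw (i + 1) hi
    set α := w (i + 1) ^ 2 - w i * w (i + 2) with hα
    set β := w i * l (i + 1) - w (i + 1) * l i with hβ
    set γ := l i ^ 2 - w i * q i with hγ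
    have hdisc : β ^ 2 ≤ α * γ := by
      apply disc_of_form
      intro y' z'
      have := hform i hi.le y' z'
      simpa [hα, hβ, hγ] using this
    have hαnn : 0 ≤ α := by
      have := hform i hi.le 1 0
      simp at this
      simpa [hα] using this
    have e1 : φ (i + 1) - φ i = (-α * y + β * z) / (w i * w (i + 1)) := by
      simp only [hφ, hξ, hα, hβ]
      field_simp
      ring
    have e2 : (w (i + 1) / w i - w (i + 2) / w (i + 1)) * e i
        = α * (α * y ^ 2 - 2 * β * y * z + γ * z ^ 2) / (w i * w (i + 1)) ^ 2 := by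
      simp only [he, hP, hα, hβ, hγ]
      field_simp
    rw [e1, e2, div_pow]
    have hden : 0 < (w i * w (i + 1)) ^ 2 := by positivity
    rw [div_le_div_iff_of_pos_right hden]
    nlinarith [mul_nonneg (sq_nonneg z) (sub_nonneg.mpr hdisc)]
  have hcore := core_slack w φ e σ N hw he_nn hlc hinc
  -- rewrite both sides of the goal
  have hW : ∑ i ∈ range (N + 1), w i = Xs w N := rfl
  have hsumT : ∑ i ∈ range (N + 1), (w (i + 2) * y ^ 2 + 2 * l (i + 1) * y * z + q i * z ^ 2)
      = ∑ i ∈ range (N + 1), w i * φ i ^ 2 - ∑ i ∈ range (N + 1), P i := by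
    rw [← Finset.sum_sub_distrib]
    exact Finset.sum_congr rfl (fun i hi => hT i (by have := Finset.mem_range.mp hi; omega))
  have hsumξ : ∑ i ∈ range (N + 1), (w (i + 1) * y + l i * z)
      = ∑ i ∈ range (N + 1), w i * φ i :=
    Finset.sum_congr rfl (fun i hi => hξφ i (by have := Finset.mem_range.mp hi; omega))
  have hξ0 : w 1 * y + l 0 * z = w 0 * φ 0 := hξφ 0 (Nat.zero_le _)
  -- sums of the shifted function
  have hs1 : ∑ i ∈ range (N + 1), w i * (φ i + if i = 0 then σ else 0)
      = ∑ i ∈ range (N + 1), w i * φ i + σ * w 0 := by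
    have : ∀ i ∈ range (N + 1), w i * (φ i + if i = 0 then σ else 0)
        = w i * φ i + (if i = 0 then σ * w i else 0) := by
      intro i _
      split_ifs <;> ring
    rw [Finset.sum_congr rfl this, Finset.sum_add_distrib,
      Finset.sum_ite_eq' (range (N + 1)) 0 (fun i => σ * w i)]
    simp
  have hs2 : ∑ i ∈ range (N + 1), w i * (φ i + if i = 0 then σ else 0) ^ 2
      = ∑ i ∈ range (N + 1), w i * φ i ^ 2 + 2 * σ * (w 0 * φ 0) + σ ^ 2 * w 0 := by
    have : ∀ i ∈ range (N + 1), w i * (φ i + if i = 0 then σ else 0) ^ 2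
        = w i * φ i ^ 2 + (if i = 0 then 2 * σ * (w i * φ i) + σ ^ 2 * w i else 0) := by
      intro i _
      split_ifs <;> ring
    rw [Finset.sum_congr rfl this, Finset.sum_add_distrib,
      Finset.sum_ite_eq' (range (N + 1)) 0 (fun i => 2 * σ * (w i * φ i) + σ ^ 2 * w i)]
    simp
    ring
  have hVb : Vb w (fun i => φ i + if i = 0 then σ else 0) N
      = Xs w N * (∑ i ∈ range (N + 1), w i * φ i ^ 2 + 2 * σ * (w 0 * φ 0) + σ ^ 2 * w 0)
        - (∑ i ∈ range (N + 1), w i * φ i + σ * w 0) ^ 2 := by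
    unfold Vb
    rw [hs1, hs2]
  rw [hsumT, hsumξ, hξ0, hW]
  have hXnn : 0 < Xs w N := by
    unfold Xs
    exact Finset.sum_pos (fun i hi => hw i (by have := Finset.mem_range.mp hi; omega))
      ⟨0, Finset.mem_range.mpr (Nat.succ_pos N)⟩
  have hXs_nn : ∀ t, t ≤ N → 0 ≤ Xs w t := by
    intro t ht
    unfold Xs
    exact Finset.sum_nonneg (fun i hi => (hw i (by have := Finset.mem_range.mp hi; omega)).le)
  have hPsum_nn : 0 ≤ ∑ i ∈ range (N + 1), P i :=
    Finset.sum_nonneg (fun i hi => hPnn i (by have := Finset.mem_range.mp hi; omega))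
  -- bound of Ub
  have hUb : Ub w e σ N ≤ Xs w N * (∑ i ∈ range (N + 1), P i + κ * (σ ^ 2 * w 1)) := by
    rcases hκ with h1 | ⟨hN, hκ0⟩
    · subst h1
      unfold Ub
      have hterm : ∀ t ∈ range N, e t * (w (t + 1) * Xs w N - w (N + 1) * Xs w t)
          ≤ Xs w N * P t := by
        intro t ht
        have htN : t < N := Finset.mem_range.mp ht
        have hw1' : 0 < w (t + 1) := hw (t + 1) htN
        have het : e t * w (t + 1) = P t := by
          simp only [he]
          field_simp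
        have hnn : 0 ≤ e t * (w (N + 1) * Xs w t) :=
          mul_nonneg (he_nn t htN) (mul_nonneg hw1 (hXs_nn t htN.le))
        have : e t * (w (t + 1) * Xs w N - w (N + 1) * Xs w t)
            = Xs w N * (e t * w (t + 1)) - e t * (w (N + 1) * Xs w t) := by ring
        rw [this, het]
        linarith
      have hsum := Finset.sum_le_sum hterm
      rw [← Finset.mul_sum] at hsum
      have hPN : 0 ≤ P N := hPnn N le_rfl
      rw [Finset.sum_range_succ]
      have hσ : 0 ≤ σ ^ 2 * (w 0 * w (N + 1)) :=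
        mul_nonneg (sq_nonneg σ) (mul_nonneg (hw 0 (Nat.zero_le _)).le hw1)
      nlinarith [mul_nonneg hXnn.le hPN]
    · subst hN
      have hU0 : Ub w e σ 0 = 0 := by
        unfold Ub Xs
        rw [Finset.sum_range_zero]
        simp only [zero_add, Finset.sum_range_one]
        ring
      rw [hU0]
      have hκw : 0 ≤ κ * (σ ^ 2 * w 1) :=
        mul_nonneg hκ0 (mul_nonneg (sq_nonneg σ) hw1)
      exact mul_nonneg hXnn.le (add_nonneg hPsum_nn hκw)
  have hfin := le_trans hcore hUb
  rw [hVb] at hfin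
  nlinarith [hfin]

end Vale.Agent.Lib.P328.helper74
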